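import Vale.Agent.Lib.P252.Radial

namespace Vale.Agent.Results.P252.RadialBernstein

open Vale.Agent.Lib.P252

/-- Affine Bernstein theorem for rotationally symmetric graphs, in every dimension `n ≥ 2`:
if `u(x) = φ(|x|^2)` on the open ball of radius `R ≤ ∞` about the origin has positive definite
Hessian and solves the affine maximal equation there, then `u(x) = a |x|^2 + c` with `a > 0`. -/
theorem result (n : ℕ) (hn : 2 ≤ n) (R : ENNReal) (φ : ℝ → ℝ)
    (hφ : ∀ x ∈ Metric.eball (0 : EuclideanSpace ℝ (Fin n)) R, ContDiffAt ℝ 4 φ (‖x‖ ^ 2))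
    (hpos : ∀ x ∈ Metric.eball (0 : EuclideanSpace ℝ (Fin n)) R,
      (hess (fun y : EuclideanSpace ℝ (Fin n) => φ (‖y‖ ^ 2)) x).PosDef)
    (hAM : ∀ x ∈ Metric.eball (0 : EuclideanSpace ℝ (Fin n)) R,
      amOp (fun y : EuclideanSpace ℝ (Fin n) => φ (‖y‖ ^ 2)) x = 0) :
    ∃ a c : ℝ, 0 < a ∧ ∀ x ∈ Metric.eball (0 : EuclideanSpace ℝ (Fin n)) R,
      φ (‖x‖ ^ 2) = a * ‖x‖ ^ 2 + c :=
  radial_bernstein n hn R φ hφ hpos hAM

end Vale.Agent.Results.P252.RadialBernstein
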