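import Vale.Agent.Lib.P252.helper24.Separable

namespace Vale.Agent.Results.P252.SeparableBernstein

open Vale.Agent.Lib.P252

/-- Affine Bernstein theorem for entire separable graphs, in every dimension `n`: if
`u(x) = f_1(x_1) + ... + f_n(x_n)` on all of `R^n`, with every `f_i` of class `C^4`, has
positive definite Hessian and solves the affine maximal equation at every point, then `u` is a
quadratic polynomial `sum_i (a_i x_i^2 + b_i x_i) + c` with all `a_i > 0`. -/
theorem result (n : ℕ) (f : Fin n → ℝ → ℝ)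
    (hf : ∀ i, ContDiff ℝ 4 (f i))
    (hpos : ∀ x : EuclideanSpace ℝ (Fin n),
      (hess (fun y : EuclideanSpace ℝ (Fin n) => ∑ i, f i (y i)) x).PosDef)
    (hAM : ∀ x : EuclideanSpace ℝ (Fin n),
      amOp (fun y : EuclideanSpace ℝ (Fin n) => ∑ i, f i (y i)) x = 0) :
    ∃ a b : Fin n → ℝ, ∃ c : ℝ, (∀ i, 0 < a i) ∧
      ∀ x : EuclideanSpace ℝ (Fin n),
        ∑ i, f i (x i) = ∑ i, (a i * x i ^ 2 + b i * x i) + c :=
  Sep.separable_bernstein n f hf hpos hAM

end Vale.Agent.Results.P252.SeparableBernstein
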