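import Vale.Agent.Lib.P252.helper24.SeparableBox

namespace Vale.Agent.Results.P252.SeparableComplete

open Vale.Agent.Lib.P252

/-- Affine Bernstein theorem for separable graphs with closed graph, in every dimension `n`:
let `I_1, ..., I_n` be nonempty open intervals of `R` (open order-connected sets), `f_i` of class
`C^4` on `I_i`, and `u(x) = f_1(x_1) + ... + f_n(x_n)` on the box `I_1 x ... x I_n`.  If `u` has
positive definite Hessian and solves the affine maximal equation at every point of the box, and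
the graph of `u` over the box is a closed subset of `R^n x R`, then every `I_i` is all of `R`
and `u` is a quadratic polynomial `sum_i (a_i x_i^2 + b_i x_i) + c` with all `a_i > 0`. -/
theorem result (n : ℕ) (I : Fin n → Set ℝ)
    (hIo : ∀ i, IsOpen (I i)) (hIc : ∀ i, (I i).OrdConnected) (hIne : ∀ i, (I i).Nonempty)
    (f : Fin n → ℝ → ℝ) (hf : ∀ i, ContDiffOn ℝ 4 (f i) (I i))
    (hpos : ∀ x : EuclideanSpace ℝ (Fin n), (∀ i, x i ∈ I i) →
      (hess (fun y : EuclideanSpace ℝ (Fin n) => ∑ i, f i (y i)) x).PosDef)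
    (hAM : ∀ x : EuclideanSpace ℝ (Fin n), (∀ i, x i ∈ I i) →
      amOp (fun y : EuclideanSpace ℝ (Fin n) => ∑ i, f i (y i)) x = 0)
    (hclosed : IsClosed {p : EuclideanSpace ℝ (Fin n) × ℝ |
      (∀ i, p.1 i ∈ I i) ∧ p.2 = ∑ i, f i (p.1 i)}) :
    (∀ i, I i = Set.univ) ∧ ∃ a b : Fin n → ℝ, ∃ c : ℝ, (∀ i, 0 < a i) ∧
      ∀ x : EuclideanSpace ℝ (Fin n),
        ∑ i, f i (x i) = ∑ i, (a i * x i ^ 2 + b i * x i) + c :=
  SepBox.separable_complete n I hIo hIc hIne f hf hpos hAM hclosed

end Vale.Agent.Results.P252.SeparableComplete
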